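import Vale.Agent.P073.Defs

/-!
# Maps whose derivative lies locally in a cone of invertible maps
-/

namespace Vale.Agent.P073

open MeasureTheory Metric Set
open scoped RealInnerProductSpace

variable {E : Type*} [NormedAddCommGroup E] [InnerProductSpace ℝ E] [MeasureSpace E]

/-- Near each point of `Ω` and for each direction `h` one functional `⟪v, ·⟫` with `‖v‖ ≤ 1`
bounds `G x h` below by a fixed multiple of `‖G x‖ * ‖h‖`: locally the values of `G` lie in a
closed convex cone whose nonzero elements are invertible. -/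
def IsConeLike (Ω : Set E) (G : E → E →L[ℝ] E) : Prop :=
  ∀ a ∈ Ω, ∃ R > 0, ∃ c > 0, ball a R ⊆ Ω ∧ ∀ h : E, ∃ v : E, ‖v‖ ≤ 1 ∧
    ∀ᵐ x ∂volume.restrict (ball a R), c * ‖G x‖ * ‖h‖ ≤ ⟪v, G x h⟫

end Vale.Agent.P073
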