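import Vale.Agent.P073.Defs

/-!
# A local diffeomorphism near a homeomorphism is onto
-/

namespace Vale.Agent.P073

open Metric Set Function Filter
open scoped ContDiff Topology

set_option linter.unusedSectionVars false

variable {E : Type*} [NormedAddCommGroup E] [NormedSpace ℝ E] [FiniteDimensional ℝ E] [Nontrivial E]
  [MeasureTheory.MeasureSpace E]

/-- An injective local diffeomorphism which stays closer to a homeomorphism `f` of `Ω` onto `Λ` than
a third of the distance to the complement of `Λ` is a diffeomorphism of `Ω` onto `Λ`. -/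
theorem isDiffeo_of_near {Ω Λ : Set E} (hΩ : IsOpen Ω) (hΩc : IsConnected Ω)
    (hΛ : IsOpen Λ) (hΛb : Bornology.IsBounded Λ) {f g F : E → E} (hbij : BijOn f Ω Λ)
    (hinv : InvOn g f Ω Λ) (hfc : ContinuousOn f Ω) (hgc : ContinuousOn g Λ)
    (hsmooth : ContDiffOn ℝ ∞ F Ω) (hmaps : MapsTo F Ω Λ) (hinj : InjOn F Ω)
    (hML : ∀ x ∈ Ω, ∃ L : E ≃L[ℝ] E, HasFDerivAt F (L : E →L[ℝ] E) x)
    (hnearf : ∀ x ∈ Ω, 3 * dist (F x) (f x) ≤ infDist (f x) Λᶜ) :
    IsDiffeo Ω Λ F := by
  have hgm : MapsTo g Λ Ω := fun w hw => by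
    obtain ⟨x, hx, rfl⟩ := hbij.surjOn hw
    rwa [hinv.1 hx]
  have hat : ∀ x ∈ Ω, ContDiffAt ℝ ∞ F x := fun x hx => hsmooth.contDiffAt (hΩ.mem_nhds hx)
  have himo : IsOpen (F '' Ω) := by
    rw [isOpen_iff_mem_nhds]
    rintro _ ⟨x, hx, rfl⟩
    obtain ⟨L, hL⟩ := hML x hx
    rw [← ((hat x hx).hasStrictFDerivAt' hL (by simp)).map_nhds_eq_of_equiv]
    exact image_mem_map (hΩ.mem_nhds hx)
  -- the image is closed in `Λ`
  have hclosed : ∀ w ∈ Λ, w ∈ closure (F '' Ω) → w ∈ F '' Ω := by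
    intro w hw hcl
    obtain ⟨d, hd, hdΛ⟩ := Metric.isOpen_iff.1 hΛ w hw
    have hne : (Λᶜ : Set E).Nonempty := by
      rw [nonempty_compl]
      exact fun hu => NormedSpace.unbounded_univ ℝ E (hu ▸ hΛb)
    set K := closure Λ ∩ {v | d / 4 ≤ infDist v Λᶜ} with hK
    have hKc : IsCompact K :=
      hΛb.isCompact_closure.inter_right (isClosed_le continuous_const (continuous_infDist_pt _))
    have hKΛ : K ⊆ Λ := by
      intro v hv
      by_contra hvn
      have := hv.2
      simp only [mem_ofPred_eq, infDist_zero_of_mem (mem_compl hvn)] at this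
      linarith
    set S := g '' K
    have hS : IsCompact S := hKc.image_of_continuousOn (hgc.mono hKΛ)
    have hSΩ : S ⊆ Ω := (image_mono hKΛ).trans hgm.image_subset
    have hwd : d ≤ infDist w Λᶜ := (le_infDist hne).2 fun y hy => by
      by_contra hlt
      exact hy (hdΛ (by rw [mem_ball, dist_comm]; exact not_le.1 hlt))
    have hnear : ball w (d / 4) ∩ F '' Ω ⊆ F '' S := by
      rintro _ ⟨hv, x, hx, rfl⟩
      refine ⟨x, ⟨f x, ⟨subset_closure (hbij.mapsTo hx), ?_⟩, hinv.1 hx⟩, rfl⟩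
      have h2 := infDist_le_infDist_add_dist (x := w) (y := F x) (s := (Λᶜ : Set E))
      have h3 := infDist_le_infDist_add_dist (x := F x) (y := f x) (s := (Λᶜ : Set E))
      have h4 := hnearf x hx
      have h5 : dist w (F x) < d / 4 := by rw [dist_comm]; exact mem_ball.1 hv
      show d / 4 ≤ infDist (f x) Λᶜ
      linarith
    have h6 : w ∈ closure (ball w (d / 4) ∩ F '' Ω) :=
      isOpen_ball.inter_closure ⟨mem_ball_self (by positivity), hcl⟩
    have h7 : IsClosed (F '' S) :=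
      (hS.image_of_continuousOn (hsmooth.continuousOn.mono hSΩ)).isClosed
    exact image_mono hSΩ (closure_minimal hnear h7 h6)
  have hΛc : IsPreconnected Λ := by
    rw [← hbij.image_eq]
    exact hΩc.isPreconnected.image f hfc
  have hsurj : SurjOn F Ω Λ := by
    obtain ⟨x₀, hx₀⟩ := hΩc.nonempty
    refine hΛc.subset_left_of_subset_union himo isClosed_closure.isOpen_compl
      (disjoint_compl_right.mono_left subset_closure) ?_
      ⟨F x₀, hmaps hx₀, x₀, hx₀, rfl⟩
    intro w hw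
    by_cases hwc : w ∈ closure (F '' Ω)
    · exact Or.inl (hclosed w hw hwc)
    · exact Or.inr hwc
  refine ⟨⟨hmaps, hinj, hsurj⟩, hsmooth, invFunOn F Ω,
    ⟨fun x hx => hinj.leftInvOn_invFunOn hx, fun w hw => hsurj.rightInvOn_invFunOn hw⟩, ?_⟩
  intro w hw
  obtain ⟨x, hx, rfl⟩ := hsurj hw
  obtain ⟨L, hL⟩ := hML x hx
  refine ContDiffAt.contDiffWithinAt ?_
  refine ((hat x hx).to_localInverse hL (by simp)).congr_of_eventuallyEq ?_
  have hs := (hat x hx).hasStrictFDerivAt' hL (by simp)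
  have hmem : ∀ᶠ v in 𝓝 (F x), hs.localInverse F L x v ∈ Ω :=
    hs.localInverse_tendsto.eventually (hΩ.mem_nhds hx)
  filter_upwards [hs.eventually_right_inverse, hmem] with v hv1 hv2
  conv_lhs => rw [← hv1]
  exact hinj.leftInvOn_invFunOn hv2

end Vale.Agent.P073
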