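import Vale.Agent.P073.Rho
import Vale.Agent.P073.Cone.Defs

/-!
# Radii: Lipschitz and smooth
-/

namespace Vale.Agent.P073

open MeasureTheory Metric Set Function Filter
open scoped ContDiff Topology

set_option linter.unusedSectionVars false

variable {E : Type*} [NormedAddCommGroup E] [InnerProductSpace ℝ E] [FiniteDimensional ℝ E]

/-- The largest radii with a property inherited by smaller balls form a Lipschitz function. -/
theorem exists_lipschitz_radius {Ω : Set E} (P : E → ℝ → Prop)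
    (hmono : ∀ x y r s, P x r → 0 < s → dist x y + s ≤ r → P y s)
    (hex : ∀ x ∈ Ω, ∃ r > 0, P x r) :
    ∃ q : E → ℝ, Continuous q ∧ (∀ x y, q x ≤ q y + dist x y) ∧ (∀ x ∈ Ω, 0 < q x) ∧
      ∀ x, 0 < q x → P x (q x) := by
  set S : E → Set ℝ := fun x => {r | r = 0 ∨ 0 < r ∧ r ≤ 1 ∧ P x r} with hS
  have hne : ∀ x, (S x).Nonempty := fun x => ⟨0, Or.inl rfl⟩
  have hbd : ∀ x, BddAbove (S x) := fun x => ⟨1, by
    rintro r (rfl | ⟨-, h, -⟩)
    · exact zero_le_one
    · exact h⟩
  have h0 : ∀ x, 0 ≤ sSup (S x) := fun x => le_csSup (hbd x) (Or.inl rfl)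
  have hlip : ∀ x y, sSup (S x) ≤ sSup (S y) + dist x y := by
    intro x y
    refine csSup_le (hne x) ?_
    rintro r (rfl | ⟨hr, hr1, hP⟩)
    · linarith [h0 y, dist_nonneg (x := x) (y := y)]
    by_cases hd : r ≤ dist x y
    · linarith [h0 y]
    push Not at hd
    have : r - dist x y ∈ S y := Or.inr ⟨by linarith, by linarith [dist_nonneg (x := x) (y := y)],
      hmono x y r _ hP (by linarith) (by linarith)⟩
    linarith [le_csSup (hbd y) this]
  refine ⟨fun x => sSup (S x) / 2, ?_, fun x y => ?_, fun x hx => ?_, fun x hx => ?_⟩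
  · refine (LipschitzWith.of_le_add fun x y => ?_).continuous.div_const 2
    exact hlip x y
  · linarith [hlip x y, dist_nonneg (x := x) (y := y)]
  · obtain ⟨r, hr, hP⟩ := hex x hx
    have : min r 1 ∈ S x := Or.inr ⟨lt_min hr one_pos, min_le_right _ _,
      hmono x x r _ hP (lt_min hr one_pos) (by rw [dist_self, zero_add]; exact min_le_left _ _)⟩
    have := le_csSup (hbd x) this
    have := lt_min hr one_pos
    linarith
  · obtain ⟨r, hrS, hr⟩ := exists_lt_of_lt_csSup (hne x) (show sSup (S x) / 2 < sSup (S x) by linarith)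
    rcases hrS with rfl | ⟨hr0, -, hP⟩
    · linarith
    · exact hmono x x r _ hP hx (by rw [dist_self, zero_add]; exact hr.le)

/-- A Lipschitz radius of small oscillation. -/
theorem exists_osc_radius {Ω : Set E} (hΩ : IsOpen Ω) {F : E → E} (hF : ContinuousOn F Ω)
    {φ : E → ℝ} (hφ : ContinuousOn φ (F '' Ω)) (hpos : ∀ x ∈ Ω, 0 < φ (F x)) :
    ∃ q : E → ℝ, Continuous q ∧ (∀ x y, q x ≤ q y + dist x y) ∧ (∀ x ∈ Ω, 0 < q x) ∧
      ∀ x, 0 < q x → closedBall x (q x) ⊆ Ω ∧
        ∀ u ∈ closedBall x (q x), ∀ w ∈ closedBall x (q x), dist (F u) (F w) ≤ φ (F u) := by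
  refine exists_lipschitz_radius (fun x r => closedBall x r ⊆ Ω ∧
    ∀ u ∈ closedBall x r, ∀ w ∈ closedBall x r, dist (F u) (F w) ≤ φ (F u))
    (fun x y r s hP _ hle => ?_) fun x hx => ?_
  · have hsub : closedBall y s ⊆ closedBall x r :=
      closedBall_subset_closedBall' (by rw [dist_comm]; linarith)
    exact ⟨hsub.trans hP.1, fun u hu w hw => hP.2 u (hsub hu) w (hsub hw)⟩
  · have hk := hpos x hx
    obtain ⟨δ, hδ, hball⟩ := Metric.eventually_nhds_iff.1
      ((eventually_mem_set.2 (hΩ.mem_nhds hx)).and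
        (((hF.continuousAt (hΩ.mem_nhds hx)).eventually (ball_mem_nhds (F x)
          (show 0 < φ (F x) / 4 by positivity))).and
          (((hφ.comp hF (mapsTo_image F Ω)).continuousAt (hΩ.mem_nhds hx)).eventually
            (lt_mem_nhds (show φ (F x) / 2 < φ (F x) by linarith)))))
    refine ⟨δ / 2, by positivity, fun u hu => (hball (y := u)
      ((mem_closedBall.1 hu).trans_lt (by linarith))).1, fun u hu w hw => ?_⟩
    obtain ⟨-, h1, h2⟩ := hball ((mem_closedBall.1 hu).trans_lt (show δ / 2 < δ by linarith))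
    obtain ⟨-, h3, -⟩ := hball ((mem_closedBall.1 hw).trans_lt (show δ / 2 < δ by linarith))
    have h2' : φ (F x) / 2 < φ (F u) := h2
    linarith [dist_triangle_right (F u) (F w) (F x)]

/-- There is a smooth radius below a given continuous one, with gradient below it as well. -/
theorem exists_smooth_radius {Ω : Set E} (hΩ : IsOpen Ω) (hne : Ω.Nonempty) {m : E → ℝ}
    (hm : ContinuousOn m Ω) (hm0 : ∀ x ∈ Ω, 0 < m x) :
    ∃ ρ : E → ℝ, ContDiff ℝ ∞ ρ ∧ (∀ y, ρ y ≤ 1) ∧ (∀ y, ‖fderiv ℝ ρ y‖ ≤ 1 / 4) ∧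
      (∀ x ∈ Ω, 0 < ρ x) ∧ ∀ x ∈ Ω, ρ x ≤ m x ∧ ‖fderiv ℝ ρ x‖ ≤ m x := by
  have hR : ∀ a ∈ Ω, ∃ R > 0, closedBall a R ⊆ Ω ∧ ∃ μ > 0, ∀ y ∈ closedBall a R, μ ≤ m y := by
    intro a ha
    obtain ⟨R, hR, hsub⟩ := nhds_basis_closedBall.mem_iff.1 (hΩ.mem_nhds ha)
    obtain ⟨y, hy, hmin⟩ := (isCompact_closedBall a R).exists_isMinOn
      ⟨a, mem_closedBall_self hR.le⟩ (hm.mono hsub)
    exact ⟨R, hR, hsub, m y, hm0 y (hsub hy), fun z hz => hmin hz⟩
  choose! R hR0 hRΩ μ hμ0 hμm using hR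
  obtain ⟨T, hTΩ, hTc, hcov⟩ :=
    TopologicalSpace.isOpen_biUnion_countable Ω (fun a => ball a (R a)) fun a _ => isOpen_ball
  have hTcov : ∀ x ∈ Ω, ∃ a ∈ T, x ∈ ball a (R a) := by
    intro x hx
    have h1 : x ∈ ⋃ a ∈ Ω, ball a (R a) := mem_biUnion hx (mem_ball_self (hR0 x hx))
    rw [← hcov] at h1
    simpa using h1
  obtain ⟨a, haT⟩ := hTc.exists_eq_range (by
    obtain ⟨x, hx⟩ := hne
    obtain ⟨a, ha, -⟩ := hTcov x hx
    exact ⟨a, ha⟩)
  have haΩ : ∀ i, a i ∈ Ω := fun i => hTΩ (haT ▸ mem_range_self i)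
  have hRi : ∀ i, 0 < R (a i) := fun i => hR0 _ (haΩ i)
  set g : ∀ i, ContDiffBump (a i) := fun i =>
    ⟨R (a i) / 2, R (a i), by linarith [hRi i], by linarith [hRi i]⟩ with hg
  have hbd : ∀ i k : ℕ, ∃ B, ∀ x, ‖iteratedFDeriv ℝ k (g i) x‖ ≤ B := by
    intro i k
    obtain ⟨B, hB⟩ := ((g i).contDiff.continuous_iteratedFDeriv
      (m := k) (n := ∞) (mod_cast le_top)).norm.bddAbove_range_of_hasCompactSupport
      (((g i).hasCompactSupport.iteratedFDeriv k).comp_left norm_zero)
    exact ⟨B, fun x => hB (mem_range_self x)⟩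
  choose B hB using hbd
  have hB0 : ∀ i k, 0 ≤ B i k := fun i k => (norm_nonneg _).trans (hB i k (a i))
  set S : ℕ → ℝ := fun i => 1 + ∑ k ∈ Finset.range (i + 2), B i k
  have hS : ∀ i, 1 ≤ S i := fun i => by
    simp only [S]; linarith [Finset.sum_nonneg fun k (_ : k ∈ Finset.range (i + 2)) => hB0 i k]
  set c : ℕ → ℝ := fun i => (1 / 2) ^ i * (min 1 (μ (a i)) / (16 * S i)) with hc
  have hc0 : ∀ i, 0 < c i := fun i => by
    have := hS i; have := hμ0 _ (haΩ i); simp only [hc]; positivity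
  set v : ℕ → ℝ := fun i => (1 / 2) ^ i * (1 / 16)
  have hvs : Summable v := (summable_geometric_two.mul_right _)
  have hv2 : ∑' i, v i = 1 / 8 := by rw [tsum_mul_right, tsum_geometric_two]; norm_num
  have hcS : ∀ i, c i * S i = (1 / 2) ^ i * (min 1 (μ (a i)) / 16) := fun i => by
    have := hS i
    simp only [hc]
    field_simp
  have hcS1 : ∀ i, c i * S i ≤ v i := fun i => by
    rw [hcS]
    exact mul_le_mul_of_nonneg_left (by linarith [min_le_left (1 : ℝ) (μ (a i))]) (by positivity)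
  have hBS : ∀ i k, k ≤ i + 1 → B i k ≤ S i := fun i k hk => by
    have := Finset.single_le_sum (f := fun k => B i k) (fun k _ => hB0 i k)
      (Finset.mem_range.2 (show k < i + 2 by omega))
    simp only [S]
    linarith
  have hder : ∀ i k x, ‖iteratedFDeriv ℝ k (fun y => c i * g i y) x‖ = c i * ‖iteratedFDeriv ℝ k (g i) x‖ := by
    intro i k x
    rw [show (fun y => c i * g i y) = c i • ⇑(g i) from rfl,
      iteratedFDeriv_const_smul_apply ((g i).contDiff.contDiffAt), norm_smul,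
      Real.norm_of_nonneg (hc0 i).le]
  set ρ : E → ℝ := fun x => ∑' i, c i * g i x with hρ
  have hsumm : ∀ x, Summable fun i => c i * g i x := fun x =>
    Summable.of_nonneg_of_le (fun i => mul_nonneg (hc0 i).le (g i).nonneg) (fun i => by
      calc c i * g i x ≤ c i * S i :=
            mul_le_mul_of_nonneg_left ((g i).le_one.trans (hS i)) (hc0 i).le
        _ ≤ v i := hcS1 i) hvs
  have hsmooth : ContDiff ℝ ∞ ρ := by
    refine contDiff_tsum_of_eventually (𝕜 := ℝ) (v := fun _ i => v i)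
      (fun i => (contDiff_const.mul (g i).contDiff)) (fun k _ => hvs) fun k _ => ?_
    rw [Nat.cofinite_eq_atTop]
    filter_upwards [eventually_ge_atTop k] with i hi x
    rw [hder]
    exact (mul_le_mul_of_nonneg_left ((hB i k x).trans (hBS i k (by omega))) (hc0 i).le).trans
      (hcS1 i)
  have hfd : ∀ i x, ‖fderiv ℝ (fun y => c i * g i y) x‖ ≤ v i := by
    intro i x
    rw [← norm_iteratedFDeriv_one, hder]
    exact (mul_le_mul_of_nonneg_left ((hB i 1 x).trans (hBS i 1 (by omega))) (hc0 i).le).trans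
      (hcS1 i)
  have hpos : ∀ x ∈ Ω, 0 < ρ x := by
    intro x hx
    obtain ⟨b, hb, hxb⟩ := hTcov x hx
    rw [haT] at hb
    obtain ⟨i, rfl⟩ := hb
    refine (hsumm x).tsum_pos (fun i => mul_nonneg (hc0 i).le (g i).nonneg) i (mul_pos (hc0 i) ?_)
    exact lt_of_le_of_ne (g i).nonneg
      (Ne.symm (mem_support.1 (by rw [(g i).support_eq]; exact hxb)))
  have hzero : ∀ i x, x ∉ closedBall (a i) (R (a i)) →
      g i x = 0 ∧ fderiv ℝ (fun y => c i * g i y) x = 0 := by
    intro i x hx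
    have h1 : x ∉ tsupport (g i) := by rwa [(g i).tsupport_eq]
    refine ⟨image_eq_zero_of_notMem_tsupport h1, image_eq_zero_of_notMem_tsupport fun h => h1 ?_⟩
    exact closure_mono (support_mul_subset_right _ _) (tsupport_fderiv_subset ℝ h)
  have hcμ : ∀ i, c i * S i ≤ v i * μ (a i) := fun i => by
    rw [hcS]
    simp only [v]
    rw [mul_assoc]
    exact mul_le_mul_of_nonneg_left (by linarith [min_le_right (1 : ℝ) (μ (a i))]) (by positivity)
  refine ⟨ρ, hsmooth, fun x => ?_, fun x => ?_, hpos, fun x hx => ⟨?_, ?_⟩⟩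
  · refine (Summable.tsum_le_tsum (fun i => ?_) (hsumm x) hvs).trans (by rw [hv2]; norm_num)
    exact (mul_le_mul_of_nonneg_left ((g i).le_one.trans (hS i)) (hc0 i).le).trans (hcS1 i)
  · rw [hρ, fderiv_tsum_apply hvs (fun i => ((g i).contDiff (n := ⊤)).differentiable (by simp)
      |>.const_mul _) (fun i y => hfd i y) (hsumm x) x]
    refine (tsum_of_norm_bounded hvs.hasSum (fun i => hfd i x)).trans ?_
    rw [hv2]
    norm_num
  · refine (Summable.tsum_le_tsum (fun i => ?_) (hsumm x) (hvs.mul_right (m x))).trans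
      (by rw [tsum_mul_right, hv2]; linarith [hm0 x hx])
    by_cases hi : x ∈ closedBall (a i) (R (a i))
    · exact ((mul_le_mul_of_nonneg_left ((g i).le_one.trans (hS i)) (hc0 i).le).trans (hcμ i)).trans
        (mul_le_mul_of_nonneg_left (hμm _ (haΩ i) x hi) (by simp only [v]; positivity))
    · rw [(hzero i x hi).1, mul_zero]
      exact mul_nonneg (by simp only [v]; positivity) (hm0 x hx).le
  · rw [hρ, fderiv_tsum_apply hvs (fun i => ((g i).contDiff (n := ⊤)).differentiable (by simp)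
      |>.const_mul _) (fun i y => hfd i y) (hsumm x) x]
    refine (tsum_of_norm_bounded (hvs.mul_right (m x)).hasSum fun i => ?_).trans
      (by rw [tsum_mul_right, hv2]; linarith [hm0 x hx])
    by_cases hi : x ∈ closedBall (a i) (R (a i))
    · rw [← norm_iteratedFDeriv_one, hder]
      exact ((mul_le_mul_of_nonneg_left ((hB i 1 x).trans (hBS i 1 (by omega))) (hc0 i).le).trans
        (hcμ i)).trans
        (mul_le_mul_of_nonneg_left (hμm _ (haΩ i) x hi) (by simp only [v]; positivity))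
    · rw [(hzero i x hi).2, norm_zero]
      exact mul_nonneg (by simp only [v]; positivity) (hm0 x hx).le

end Vale.Agent.P073
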