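import Vale.Agent.P073.Cone.Approx
import Vale.Agent.P073.Cone.Radius
import Vale.Agent.P073.Cone.Near

/-!
# Homeomorphisms with derivative in a cone of invertible maps are diffeomorphically approximable
-/

namespace Vale.Agent.P073

open MeasureTheory Metric Set Function Filter
open scoped ContDiff Topology ENNReal RealInnerProductSpace

set_option linter.unusedSectionVars false

variable {E : Type*} [NormedAddCommGroup E] [InnerProductSpace ℝ E] [FiniteDimensional ℝ E]
  [MeasureSpace E] [BorelSpace E] [(volume : Measure E).IsAddHaarMeasure] [Nontrivial E]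

theorem moll_pos {y : E} (hy : ‖y‖ < 1) : 0 < moll E y :=
  lt_of_le_of_ne (moll_nonneg y) (Ne.symm (mem_support.1 (by
    rw [moll, (bump E).support_normed_eq, mem_ball, dist_zero_right]
    exact hy)))

theorem norm_mollify_sub_le_of_forall {σ : E → ℝ} {u : E → E} (hu : Integrable u) {x : E}
    (hx : 0 < σ x) {b : ℝ} (hb : ∀ w ∈ closedBall x (σ x), ‖u w - u x‖ ≤ b) :
    ‖mollify σ u x - u x‖ ≤ b := by
  refine (norm_mollify_sub_le hu hx).trans ?_
  calc oscMean σ u x ≤ ∫ y, moll E y * b := by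
        refine integral_mono (integrable_osc hu x hx.ne') (integrable_moll.mul_const b) fun y => ?_
        rcases lt_or_ge 1 ‖y‖ with hy | hy
        · simp [moll_eq_zero hy]
        refine mul_le_mul_of_nonneg_left (hb _ ?_) (moll_nonneg y)
        rw [mem_closedBall, dist_eq_norm, add_sub_cancel_left, norm_smul, Real.norm_of_nonneg hx.le]
        nlinarith
    _ = b := by rw [integral_mul_const, integral_moll, one_mul]

theorem integrable_ker_norm {t : ℝ} {Gi : E → E →L[ℝ] E} (hG : Integrable Gi) (x : E) :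
    Integrable fun z => ker t (z - x) * ‖Gi z‖ := by
  obtain ⟨C, hC⟩ := (moll_contDiff (E := E)).continuous.bounded_above_of_compact_support
    ((bump E).hasCompactSupport_normed)
  exact hG.norm.bdd_mul (c := |(t ^ Module.finrank ℝ E)⁻¹| * C)
    (continuous_ker.comp (continuous_id.sub continuous_const)).aestronglyMeasurable
    (Eventually.of_forall fun z => by
      simp only [ker, norm_mul, Real.norm_eq_abs]
      exact mul_le_mul_of_nonneg_left (by simpa using hC _) (abs_nonneg _))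

/-- The weak derivative of an injective continuous map vanishes on no ball. -/
theorem integral_ker_norm_pos {Ω : Set E} (hΩ : IsOpen Ω) {f : E → E} (hfc : ContinuousOn f Ω)
    (hinj : InjOn f Ω) {G₀ : E → E →L[ℝ] E} (hui : Integrable (Ω.indicator f))
    (hG₀i : IntegrableOn G₀ Ω) (hGii : Integrable (Ω.indicator G₀))
    (hweak₀ : ∀ ψ : E → ℝ, ContDiff ℝ ∞ ψ → HasCompactSupport ψ → tsupport ψ ⊆ Ω → ∀ h : E,
      ∫ x in Ω, fderiv ℝ ψ x h • f x = -∫ x in Ω, ψ x • G₀ x h)
    {z : E} {t : ℝ} (ht : 0 < t) (hball : closedBall z t ⊆ Ω) :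
    0 < ∫ w, ker t (w - z) * ‖Ω.indicator G₀ w‖ := by
  classical
  set u := Ω.indicator f
  set Gi := Ω.indicator G₀
  have hnn : ∀ w, 0 ≤ ker t (w - z) * ‖Gi w‖ := fun w =>
    mul_nonneg (ker_nonneg ht.le _) (norm_nonneg _)
  by_contra hle
  have h0 : ∫ w, ker t (w - z) * ‖Gi w‖ = 0 := le_antisymm (not_lt.1 hle) (integral_nonneg hnn)
  have hae : ∀ᵐ w, w ∈ ball z t → Gi w = 0 := by
    filter_upwards [(integral_eq_zero_iff_of_nonneg hnn (integrable_ker_norm hGii z)).1 h0]
      with w hw hwb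
    have hk : 0 < ker t (w - z) := by
      refine mul_pos (by positivity) (moll_pos ?_)
      rw [norm_smul, norm_inv, Real.norm_of_nonneg ht.le, inv_mul_lt_one₀ ht, ← dist_eq_norm]
      exact mem_ball.1 hwb
    simpa [hk.ne'] using hw
  have hconst : ∀ s ∈ Ioc 0 (t / 2), ∀ y ∈ ball z (t / 2),
      HasFDerivAt (mollify (fun _ => s) u) (0 : E →L[ℝ] E) y := by
    intro s hs y hy
    have hgr : ∀ a : E, ‖fderiv ℝ (fun _ : E => s) a‖ ≤ 1 := fun a => by simp
    obtain ⟨-, hd⟩ := hasFDerivAt_mollify (ρ := fun _ => s) contDiff_const hgr hui (x := y) hs.1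
    refine hd.differentiableAt.hasFDerivAt.congr_fderiv ?_
    ext h
    rw [fderiv_mollify_apply hΩ (ρ := fun _ => s) contDiff_const hgr hui hG₀i hweak₀ hs.1
      ((closedBall_subset_closedBall' (by linarith [hs.2, mem_ball.1 hy])).trans hball) h]
    simp only [zero_apply]
    refine integral_eq_zero_of_ae ?_
    filter_upwards [hae] with w hw
    rcases lt_or_ge s ‖w - y‖ with h1 | h1
    · simp [ker_eq_zero hs.1 h1]
    · rw [show Ω.indicator G₀ w = 0 from hw (mem_ball.2 ((dist_triangle w y z).trans_lt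
        (by rw [dist_eq_norm w y]; linarith [hs.2, mem_ball.1 hy])))]
      simp
  obtain ⟨v, hv⟩ := exists_norm_eq E (show (0 : ℝ) ≤ t / 4 by positivity)
  set y := z + v
  have hy : y ∈ ball z (t / 2) := by
    rw [mem_ball, dist_eq_norm, add_sub_cancel_left, hv]; linarith
  have hfyz : f y = f z := by
    refine eq_of_forall_dist_le fun e he => ?_
    have hzΩ : z ∈ Ω := hball (mem_closedBall_self ht.le)
    have hyΩ : y ∈ Ω := hball (ball_subset_closedBall (ball_subset_ball (by linarith) hy))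
    obtain ⟨δ₁, hδ₁, hb₁⟩ := Metric.continuousAt_iff.1 (hfc.continuousAt (hΩ.mem_nhds hzΩ))
      (e / 2) (by positivity)
    obtain ⟨δ₂, hδ₂, hb₂⟩ := Metric.continuousAt_iff.1 (hfc.continuousAt (hΩ.mem_nhds hyΩ))
      (e / 2) (by positivity)
    set s := min (t / 2) (min δ₁ δ₂ / 2)
    have hs : s ∈ Ioc 0 (t / 2) := ⟨by positivity, min_le_left _ _⟩
    have hclose : ∀ x : E, x ∈ ball z (t / 2) → ∀ δ, s < δ →
        (∀ ⦃w : E⦄, dist w x < δ → dist (f w) (f x) < e / 2) →
          ‖mollify (fun _ => s) u x - f x‖ ≤ e / 2 := by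
      intro x hx δ hδ hb
      have hsub : closedBall x s ⊆ Ω :=
        (closedBall_subset_closedBall' (by linarith [hs.2, mem_ball.1 hx])).trans hball
      have hxu : u x = f x := indicator_of_mem (hsub (mem_closedBall_self hs.1.le)) f
      rw [← hxu]
      refine norm_mollify_sub_le_of_forall (σ := fun _ => s) hui hs.1 fun w hw => ?_
      rw [hxu, show u w = f w from indicator_of_mem (hsub hw) f, ← dist_eq_norm]
      exact (hb ((mem_closedBall.1 hw).trans_lt hδ)).le
    have hsd : s < δ₁ ∧ s < δ₂ := by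
      have := min_le_right (t / 2) (min δ₁ δ₂ / 2)
      constructor <;> linarith [min_le_left δ₁ δ₂, min_le_right δ₁ δ₂]
    have hz := hclose z (mem_ball_self (by positivity)) δ₁ hsd.1 hb₁
    have hy' := hclose y hy δ₂ hsd.2 hb₂
    have heq := (convex_ball z (t / 2)).norm_image_sub_le_of_norm_hasFDerivWithin_le (C := (0 : ℝ))
      (fun x hx => (hconst s hs x hx).hasFDerivWithinAt) (fun x _ => le_of_eq norm_zero)
      (mem_ball_self (by positivity)) hy
    rw [zero_mul, norm_le_zero_iff, sub_eq_zero] at heq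
    rw [heq] at hy'
    rw [← dist_eq_norm] at hz hy'
    linarith [dist_triangle_left (f y) (f z) (mollify (fun _ => s) u z)]
  have hne := hinj (hball (ball_subset_closedBall (ball_subset_ball (by linarith) hy)))
    (hball (mem_closedBall_self ht.le)) hfyz
  simp [y] at hne
  rw [hne, norm_zero] at hv
  linarith

/-- If `G` lies in the cone near `z` then the mollified derivative at `z` lies in it. -/
theorem inner_fderiv_mollify_pos {Ω : Set E} (hΩ : IsOpen Ω) {σ : E → ℝ} (hσs : ContDiff ℝ ∞ σ)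
    (hgr : ∀ y, ‖fderiv ℝ σ y‖ ≤ 1) {f : E → E} {G₀ : E → E →L[ℝ] E}
    (hui : Integrable (Ω.indicator f)) (hG₀i : IntegrableOn G₀ Ω)
    (hGii : Integrable (Ω.indicator G₀))
    (hweak₀ : ∀ ψ : E → ℝ, ContDiff ℝ ∞ ψ → HasCompactSupport ψ → tsupport ψ ⊆ Ω → ∀ h : E,
      ∫ x in Ω, fderiv ℝ ψ x h • f x = -∫ x in Ω, ψ x • G₀ x h)
    {z : E} (hσz : 0 < σ z) (hball : closedBall z (σ z) ⊆ Ω) {q : ℝ}
    (hq : ‖fderiv ℝ σ z‖ ≤ q / 2) (hq0 : 0 < q) {h v : E} (hh : h ≠ 0) (hv : ‖v‖ ≤ 1)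
    (hcone : ∀ᵐ w, ‖w - z‖ ≤ σ z →
      q * ‖Ω.indicator G₀ w‖ * ‖h‖ ≤ ⟪v, Ω.indicator G₀ w h⟫)
    (hI : 0 < ∫ w, ker (σ z) (w - z) * ‖Ω.indicator G₀ w‖) :
    0 < ⟪v, fderiv ℝ (mollify σ (Ω.indicator f)) z h⟫ := by
  classical
  set Gi := Ω.indicator G₀
  set t := σ z
  rw [fderiv_mollify_apply hΩ hσs hgr hui hG₀i hweak₀ hσz hball h]
  set s := fderiv ℝ σ z h
  have hs : |s| ≤ q / 2 * ‖h‖ := by
    rw [← Real.norm_eq_abs]
    exact ((fderiv ℝ σ z).le_opNorm h).trans (mul_le_mul_of_nonneg_right hq (norm_nonneg h))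
  have hb : ∀ w, ‖w - z‖ ≤ t → ‖(s / t) • (w - z)‖ ≤ |s| := fun w hw => by
    rw [norm_smul, norm_div, Real.norm_eq_abs, Real.norm_of_nonneg hσz.le, div_mul_eq_mul_div,
      div_le_iff₀ hσz]
    exact mul_le_mul_of_nonneg_left hw (abs_nonneg s)
  have hint : Integrable fun w => ker t (w - z) • Gi w (h + (s / t) • (w - z)) := by
    refine ((integrable_ker_norm (t := t) hGii z).mul_const (‖h‖ + |s|)).mono'
      ((continuous_ker.comp (continuous_id.sub continuous_const)).aestronglyMeasurable.smul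
        ((ContinuousLinearMap.id ℝ (E →L[ℝ] E)).aestronglyMeasurable_comp₂ hGii.1
          (by fun_prop : Continuous fun w : E => h + (s / t) • (w - z)).aestronglyMeasurable))
      (Eventually.of_forall fun w => ?_)
    rcases lt_or_ge t ‖w - z‖ with hw | hw
    · simp [ker_eq_zero hσz hw]
    rw [norm_smul, Real.norm_of_nonneg (ker_nonneg hσz.le _), mul_assoc]
    refine mul_le_mul_of_nonneg_left (((Gi w).le_opNorm _).trans ?_) (ker_nonneg hσz.le _)
    exact mul_le_mul_of_nonneg_left ((norm_add_le _ _).trans (by linarith [hb w hw])) (norm_nonneg _)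
  rw [← integral_inner hint v]
  refine lt_of_lt_of_le (mul_pos (show 0 < q / 2 * ‖h‖ by positivity) hI) ?_
  rw [← integral_const_mul]
  refine integral_mono_ae ((integrable_ker_norm hGii z).const_mul _) (hint.const_inner v) ?_
  filter_upwards [hcone] with w hw
  rcases lt_or_ge t ‖w - z‖ with hwt | hwt
  · simp [ker_eq_zero hσz hwt]
  rw [inner_smul_right, map_add, map_smul, inner_add_right, inner_smul_right,
    mul_left_comm]
  refine mul_le_mul_of_nonneg_left ?_ (ker_nonneg hσz.le _)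
  have h1 : |s / t * ⟪v, Gi w (w - z)⟫| ≤ |s| * ‖Gi w‖ := by
    rw [abs_mul, abs_div, abs_of_pos hσz, div_mul_eq_mul_div, div_le_iff₀ hσz, mul_assoc]
    refine mul_le_mul_of_nonneg_left ((abs_real_inner_le_norm _ _).trans ?_) (abs_nonneg s)
    calc ‖v‖ * ‖Gi w (w - z)‖ ≤ 1 * (‖Gi w‖ * t) :=
          mul_le_mul hv (((Gi w).le_opNorm _).trans (mul_le_mul_of_nonneg_left hwt (norm_nonneg _)))
            (norm_nonneg _) zero_le_one
      _ = ‖Gi w‖ * t := one_mul _
  have h2 := mul_le_mul_of_nonneg_right hs (norm_nonneg (Gi w))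
  linarith [(abs_le.1 h1).1, hw hwt]

theorem isApproximable_of_coneLike {Ω Λ : Set E} (hΩ : IsOpen Ω) (hΩc : IsConnected Ω)
    (hΩb : Bornology.IsBounded Ω) (hΛ : IsOpen Λ) (hΛb : Bornology.IsBounded Λ) {f g : E → E}
    (hbij : BijOn f Ω Λ) (hinv : InvOn g f Ω Λ) (hfc : ContinuousOn f Ω) (hgc : ContinuousOn g Λ)
    {p : ℝ≥0∞} (hp : 1 ≤ p) (hp' : p ≠ ⊤) {G : E → E →L[ℝ] E} (hS : HasSobolevDeriv Ω p f G)
    (hcone : IsConeLike Ω G) : IsDiffeoApproximable Ω Λ p f G := by
  classical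
  have hfin : IsFiniteMeasure (volume.restrict Ω) := ⟨by
    rw [Measure.restrict_apply_univ]; exact hΩb.measure_lt_top⟩
  have hui : Integrable (Ω.indicator f) :=
    IntegrableOn.integrable_indicator (f := f) (hS.1.integrable hp) hΩ.measurableSet
  have hG₀i : IntegrableOn G Ω := hS.2.1.integrable hp
  have hGii : Integrable (Ω.indicator G) :=
    IntegrableOn.integrable_indicator (f := G) hG₀i hΩ.measurableSet
  -- the cone radius
  obtain ⟨q₁, hq₁c, hq₁l, hq₁0, hq₁P⟩ := exists_lipschitz_radius (Ω := Ω) (fun x r => closedBall x r ⊆ Ω ∧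
      ∀ h : E, ∃ v : E, ‖v‖ ≤ 1 ∧ ∀ᵐ z ∂volume.restrict (ball x r), r * ‖G z‖ * ‖h‖ ≤ ⟪v, G z h⟫)
    (fun x y r s hP hs0 hle => by
      refine ⟨(closedBall_subset_closedBall' (by rw [dist_comm]; linarith)).trans hP.1, fun h => ?_⟩
      obtain ⟨v, hv, hae⟩ := hP.2 h
      refine ⟨v, hv, ?_⟩
      filter_upwards [ae_restrict_of_ae_restrict_of_subset
        (ball_subset_ball' (by rw [dist_comm]; linarith)) hae] with z hz
      refine le_trans ?_ hz
      exact mul_le_mul_of_nonneg_right (mul_le_mul_of_nonneg_right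
        (by linarith [dist_nonneg (x := x) (y := y)]) (norm_nonneg _)) (norm_nonneg _))
    (fun a ha => by
      obtain ⟨R, hR, c, hc, hsub, hh⟩ := hcone a ha
      refine ⟨min (R / 2) c, lt_min (by positivity) hc,
        (closedBall_subset_ball ((min_le_left _ _).trans_lt (by linarith))).trans hsub, fun h => ?_⟩
      obtain ⟨v, hv, hae⟩ := hh h
      refine ⟨v, hv, ?_⟩
      filter_upwards [ae_restrict_of_ae_restrict_of_subset
        (ball_subset_ball ((min_le_left _ _).trans (by linarith))) hae] with z hz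
      exact le_trans (mul_le_mul_of_nonneg_right (mul_le_mul_of_nonneg_right (min_le_right _ _)
        (norm_nonneg _)) (norm_nonneg _)) hz)
  have hgm : ∀ w ∈ Λ, g w ∈ Ω := fun w hw => by
    obtain ⟨x, hx, rfl⟩ := hbij.surjOn hw
    rwa [hinv.1 hx]
  -- the radius in the target, and the oscillation radius of `f`
  obtain ⟨q₂, hq₂c, -, hq₂0, hq₂P⟩ := exists_osc_radius hΛ hgc
    (φ := fun a => q₁ a / 4) (hq₁c.div_const 4).continuousOn
    fun w hw => by have := hq₁0 _ (hgm w hw); positivity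
  obtain ⟨q₃, hq₃c, -, hq₃0, hq₃P⟩ := exists_osc_radius hΩ hfc
    (φ := fun a => q₂ a / 3) (hq₂c.div_const 3).continuousOn
    fun x hx => by have := hq₂0 _ (hbij.mapsTo hx); positivity
  obtain ⟨ρ, hρs, hρ1, hρg, hρ0, hρm⟩ := exists_smooth_radius hΩ hΩc.nonempty
    (m := fun x => min (q₁ x / 16) (q₃ x)) ((hq₁c.div_const 16).min hq₃c).continuousOn
    fun x hx => lt_min (by have := hq₁0 x hx; positivity) (hq₃0 x hx)
  have hins : ∀ x ∈ Ω, closedBall x (ρ x) ⊆ Ω := fun x hx =>
    (closedBall_subset_closedBall ((hρm x hx).1.trans (min_le_right _ _))).trans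
      (hq₃P x (hq₃0 x hx)).1
  refine isApproximable_of_radius hΩ hΩb hfc hp hp' hS hρs hρ1 hρg hρ0 hins fun ε hε hε1 => ?_
  set σ := fun y => ε * ρ y with hσ
  set F := mollify σ (Ω.indicator f)
  have hσs : ContDiff ℝ ∞ σ := contDiff_const.mul hρs
  have hσg : ∀ y, ‖fderiv ℝ σ y‖ ≤ ‖fderiv ℝ ρ y‖ := fun y => by
    rw [fderiv_const_mul ((hρs.differentiable (by simp)) y), norm_smul, Real.norm_of_nonneg hε.le]
    exact mul_le_of_le_one_left (norm_nonneg _) hε1
  have hσ1 : ∀ y, ‖fderiv ℝ σ y‖ ≤ 1 := fun y => (hσg y).trans ((hρg y).trans (by norm_num))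
  have hσ0 : ∀ x ∈ Ω, 0 < σ x := fun x hx => mul_pos hε (hρ0 x hx)
  have hσle : ∀ x ∈ Ω, σ x ≤ ρ x := fun x hx => mul_le_of_le_one_left (hρ0 x hx).le hε1
  have hnear : ∀ x ∈ Ω, dist (F x) (f x) ≤ q₂ (f x) / 3 := by
    intro x hx
    have hq := hq₃P x (hq₃0 x hx)
    have hle : σ x ≤ q₃ x := (hσle x hx).trans ((hρm x hx).1.trans (min_le_right _ _))
    rw [dist_eq_norm, show f x = Ω.indicator f x from (indicator_of_mem hx f).symm]
    refine norm_mollify_sub_le_of_forall hui (hσ0 x hx) fun w hw => ?_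
    have hw' : w ∈ closedBall x (q₃ x) := closedBall_subset_closedBall hle hw
    rw [indicator_of_mem (hq.1 hw'), indicator_of_mem hx, ← dist_eq_norm, dist_comm]
    exact hq.2 x (mem_closedBall_self (hq₃0 x hx).le) w hw'
  -- the derivative on a ball
  have hpos : ∀ x ∈ Ω, ∀ h : E, h ≠ 0 → ∃ v : E, ∀ z ∈ closedBall x (q₁ x / 4),
      HasFDerivAt F (fderiv ℝ F z) z ∧ 0 < ⟪v, fderiv ℝ F z h⟫ := by
    intro x hx h hh
    have hq0 := hq₁0 x hx
    obtain ⟨hsub, hex⟩ := hq₁P x hq0
    obtain ⟨v, hv, hae⟩ := hex h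
    refine ⟨v, fun z hz => ?_⟩
    have hzΩ : z ∈ Ω := hsub (closedBall_subset_closedBall (by linarith) hz)
    have hzd := mem_closedBall.1 hz
    have hqz : q₁ z ≤ 5 / 4 * q₁ x := by linarith [hq₁l z x]
    have hm1 : min (q₁ z / 16) (q₃ z) ≤ q₁ x / 8 :=
      (min_le_left _ _).trans (by linarith)
    have hins' : closedBall z (σ z) ⊆ Ω :=
      (closedBall_subset_closedBall (hσle z hzΩ)).trans (hins z hzΩ)
    refine ⟨((hasFDerivAt_mollify hσs hσ1 hui (hσ0 z hzΩ)).2).differentiableAt.hasFDerivAt, ?_⟩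
    refine inner_fderiv_mollify_pos hΩ hσs hσ1 hui hG₀i hGii hS.2.2 (hσ0 z hzΩ) hins'
      (q := q₁ x) (((hσg z).trans ((hρm z hzΩ).2.trans hm1)).trans (by linarith)) hq0 hh hv ?_
      (integral_ker_norm_pos hΩ hfc hbij.injOn hui hG₀i hGii hS.2.2 (hσ0 z hzΩ) hins')
    filter_upwards [(ae_restrict_iff' measurableSet_ball).1 hae] with w hw hwz
    have hwb : w ∈ ball x (q₁ x) := mem_ball.2 ((dist_triangle w z x).trans_lt (by
      rw [dist_eq_norm w z]
      linarith [(hσle z hzΩ).trans ((hρm z hzΩ).1.trans hm1)]))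
    rw [indicator_of_mem (hsub (ball_subset_closedBall hwb))]
    exact hw hwb
  have hΛball : ∀ x ∈ Ω, closedBall (f x) (q₂ (f x)) ⊆ Λ := fun x hx =>
    (hq₂P _ (hq₂0 _ (hbij.mapsTo hx))).1
  have hmaps : MapsTo F Ω Λ := fun x hx => hΛball x hx (mem_closedBall.2
    ((hnear x hx).trans (by linarith [hq₂0 _ (hbij.mapsTo hx)])))
  have hinj : InjOn F Ω := by
    have key : ∀ x ∈ Ω, ∀ y ∈ Ω, F x = F y → q₂ (f y) ≤ q₂ (f x) → x = y := by
      intro x hx y hy hxy hle
      by_contra hne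
      have hd : dist (f y) (f x) ≤ q₂ (f x) := by
        have h1 := hnear x hx
        have h2 := hnear y hy
        rw [hxy] at h1
        rw [dist_comm] at h2
        linarith [dist_triangle (f y) (F y) (f x), hq₂0 _ (hbij.mapsTo hx)]
      have h3 := (hq₂P _ (hq₂0 _ (hbij.mapsTo hx))).2 (f x)
        (mem_closedBall_self (hq₂0 _ (hbij.mapsTo hx)).le) (f y) (mem_closedBall.2 hd)
      rw [hinv.1 hx, hinv.1 hy] at h3
      obtain ⟨v, hv⟩ := hpos x hx (y - x) (sub_ne_zero.2 (Ne.symm hne))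
      have hseg : ∀ τ ∈ Icc (0 : ℝ) 1, HasDerivAt (fun a : ℝ => ⟪v, F (x + a • (y - x))⟫)
          ⟪v, fderiv ℝ F (x + τ • (y - x)) (y - x)⟫ τ := by
        intro τ hτ
        have hmem : x + τ • (y - x) ∈ closedBall x (q₁ x / 4) := by
          rw [mem_closedBall, dist_eq_norm, add_sub_cancel_left, norm_smul,
            Real.norm_of_nonneg hτ.1, ← dist_eq_norm, dist_comm]
          exact (mul_le_of_le_one_left dist_nonneg hτ.2).trans h3
        have h4 : HasDerivAt (fun a : ℝ => x + a • (y - x)) (y - x) τ := by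
          simpa using ((hasDerivAt_id τ).smul_const (y - x)).const_add x
        have h5 := ((hv _ hmem).1.comp_hasDerivAt τ h4)
        exact ((innerSL ℝ v).hasFDerivAt.comp_hasDerivAt τ h5)
      obtain ⟨τ, hτ, heq⟩ := exists_hasDerivAt_eq_slope _ _ zero_lt_one
        (fun τ hτ => (hseg τ hτ).continuousAt.continuousWithinAt)
        fun τ hτ => hseg τ (Ioo_subset_Icc_self hτ)
      have h6 := (hv (x + τ • (y - x)) (by
        rw [mem_closedBall, dist_eq_norm, add_sub_cancel_left, norm_smul,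
          Real.norm_of_nonneg hτ.1.le, ← dist_eq_norm, dist_comm]
        exact (mul_le_of_le_one_left dist_nonneg hτ.2.le).trans h3)).2
      simp [hxy] at heq
      rw [map_sub] at h6
      linarith
    intro x hx y hy hxy
    rcases le_total (q₂ (f y)) (q₂ (f x)) with hle | hle
    · exact key x hx y hy hxy hle
    · exact (key y hy x hx hxy.symm hle).symm
  refine isDiffeo_of_near hΩ hΩc hΛ hΛb hbij hinv hfc hgc
    ((contDiffOn_mollify hσs (fun y => ?_) hui).mono fun x hx => hσ0 x hx) hmaps hinj ?_ ?_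
  · show ε * ρ y < 2
    nlinarith [hρ1 y]
  · intro x hx
    have hdiff : HasFDerivAt F (fderiv ℝ F x) x :=
      (hasFDerivAt_mollify hσs hσ1 hui (hσ0 x hx)).2.differentiableAt.hasFDerivAt
    have hinjD : Injective (fderiv ℝ F x) := by
      refine (injective_iff_map_eq_zero _).2 fun h hh => ?_
      by_contra hne
      obtain ⟨v, hv⟩ := hpos x hx h hne
      have := (hv x (mem_closedBall_self (by have := hq₁0 x hx; positivity))).2
      rw [hh, inner_zero_right] at this
      exact lt_irrefl _ this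
    exact ⟨(LinearEquiv.ofBijective (fderiv ℝ F x).toLinearMap
      ⟨hinjD, LinearMap.injective_iff_surjective.1 hinjD⟩).toContinuousLinearEquiv, hdiff⟩
  · intro x hx
    have hne : (Λᶜ : Set E).Nonempty := by
      rw [nonempty_compl]
      exact fun hu => NormedSpace.unbounded_univ ℝ E (hu ▸ hΛb)
    suffices h : q₂ (f x) ≤ infDist (f x) Λᶜ by linarith [hnear x hx]
    refine (le_infDist hne).2 fun w hw => ?_
    by_contra hlt
    exact hw (hΛball x hx (mem_closedBall.2 (by rw [dist_comm]; exact (not_le.1 hlt).le)))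

end Vale.Agent.P073
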